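import Vale.Agent.P157.Full.UpperMain.Key

/-!
The upper bound on any family of configurations: the maximum of the objective grows with the number
of patterns at most at the rate of the pattern part.
-/

noncomputable section

open MeasureTheory ProbabilityTheory Filter
open scoped BigOperators NNReal ENNReal Topology

namespace Vale.Agent.P157.Parisi.Full

open Vale.Agent.P168 (cascFilter)
open Vale.Agent.P168.Cascade (Exps)

variable {N L T r : ℕ} {P : Sphere.Pts N}

lemma ae_no_pattern (N L : ℕ) : ∀ᵐ d ∂disLaw N L 0, d.1 = 0 := by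
  have h : ∀ᵐ n ∂poissonMeasure (0 : ℝ).toNNReal, n = 0 := by
    rw [ae_iff_of_countable]
    intro n hn
    by_contra h0
    exact hn (by simp [poissonMeasure_singleton, zero_pow h0])
  exact Measure.quasiMeasurePreserving_fst.ae h

lemma pertH_zero (s : ℝ) (J : PertIdx N L → ℝ) (σ : Sphere.Conf P) :
    Sphere.pertH s (fun _ : Fin L => (0 : ℝ)) J σ = 0 := by
  simp [Sphere.pertH]

lemma slotFree_zero (f : ℝ → ℝ) (δ a : ℝ) (m : Fin r → ℝ) (ks : Fin T → Fin (r + 1)) (s : ℝ) :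
    slotFree P f δ a m ks s (fun _ : Fin L => 0) 0 =
      slotFree P (fun _ => 0) δ a m ks 0 (fun _ : Fin L => 0) 0 := by
  refine integral_congr_ae ((ae_no_pattern N L).mono fun d hd => ?_)
  have e : ∀ (g : ℝ → ℝ) (s' : ℝ), Sphere.totalH (P := P) g s' (fun _ : Fin L => 0) d = fun _ => 0 :=
    fun g s' => funext fun σ => by simp [Sphere.totalH, hd, pertH_zero]
  simp only [e]

lemma logPartS_flat (f : ℝ → ℝ) (s μ : ℝ) :
    Sphere.logPartS P f s (fun _ : Fin L => 0) μ = Sphere.logPartS P f 0 (fun _ : Fin L => 0) μ := by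
  simp only [Sphere.logPartS, Sphere.totalH, pertH_zero]

lemma logPartS_zero (f : ℝ → ℝ) (s : ℝ) :
    Sphere.logPartS P f s (fun _ : Fin L => 0) 0 = 0 := by
  refine (integral_congr_ae (g := fun _ => (0 : ℝ))
    ((ae_no_pattern N L).mono fun d hd => ?_)).trans (integral_zero _ _)
  simp [Sphere.totalH, hd, pertH_zero, Sphere.Main.card_conf,
    show (P.K : ℝ) ≠ 0 from Nat.cast_ne_zero.2 P.pos.ne']

variable {f : ℝ → ℝ} {A δ a s h : ℝ} {m : Fin r → ℝ} {q : Fin (r + 1) → ℝ}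

/-- Crude growth in the number of patterns. -/
lemma slot_crude (hTr : TruncStmt) {C : ℝ} (hC : ∀ (N L : ℕ) (P : Sphere.Pts N) (B : Base P)
      (f : ℝ → ℝ), Smooth f A → ∀ (s : ℝ) (x : Fin L → ℝ) (μ h : ℝ), 0 ≤ μ → 0 ≤ h → h ≤ 1 →
        |baseFree B f s x (μ + h) - baseFree B f s x μ -
          h * (baseState B f s x (μ + h)).logMean f 1| ≤ C * h ^ 2)
    (hN : N ≠ 0) (hf : Smooth f A) (hm : Exps m) (hδ : 0 ≤ δ) (ha : 0 ≤ a) (h0 : 0 ≤ h)
    (h1 : h ≤ 1) (ks : Fin T → Fin (r + 1)) (x : Fin L → ℝ) (i : ℕ) :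
    slotFree P f δ a m ks s x 0 - (i : ℝ) * h * (A + |C|) ≤ slotFree P f δ a m ks s x (i * h) ∧
      slotFree P f δ a m ks s x (i * h) ≤
        slotFree P f δ a m ks s x 0 + (i : ℝ) * h * (A + |C|) := by
  have hC2 : C * h ^ 2 ≤ |C| * h := by
    calc C * h ^ 2 ≤ |C| * h ^ 2 := mul_le_mul_of_nonneg_right (le_abs_self C) (sq_nonneg h)
      _ ≤ |C| * h := mul_le_mul_of_nonneg_left (by nlinarith) (abs_nonneg C)
  induction i with
  | zero => simp
  | succ i ih =>
    have hμ : 0 ≤ (i : ℝ) * h := by positivity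
    have e1 : ((i + 1 : ℕ) : ℝ) * h = i * h + h := by push_cast; ring
    have h2 := obj_slot_step hTr hC hN hf hm hδ ha hμ h0 h1 ks x (s := s) (u := A) (P := P)
      (Eventually.of_forall fun n => (abs_le.1 (abs_logMean_le hf (baseState_good _ hf x))).2)
    have h3 := slot_step_lower hTr hC hN hf hm hδ ha hμ h0 h1 ks x (s := s) (P := P)
    rw [e1]
    obtain ⟨ih1, ih2⟩ := ih
    constructor <;> linarith

/-- A penalty dominated by a bound on the objective leaves few slots. -/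
lemma slots_few {N' η C1 d δ R T : ℝ} (hN : 0 < N') (hη : 0 < η) (hd : 0 ≤ d) (hT : 0 ≤ T)
    (hδd : δ / 2 ≤ d) (hδ1 : δ ≤ 1) (h : N' * (η * (d * T) ^ 2) ≤ N' * C1)
    (hR : R = 2 * (Real.sqrt (η * C1) / η) + 2) :
    η * (d * T) ≤ Real.sqrt (η * C1) ∧ δ * (T + 1) ≤ R := by
  have h8 : η * (d * T) ^ 2 ≤ C1 := le_of_mul_le_mul_left h hN
  have h9 : η * (d * T) ≤ Real.sqrt (η * C1) := by
    refine Real.le_sqrt_of_sq_le ?_
    nlinarith
  refine ⟨h9, ?_⟩
  have h11 : d * T ≤ Real.sqrt (η * C1) / η := by rw [le_div_iff₀ hη]; linarith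
  have h12 : δ / 2 * T ≤ d * T := mul_le_mul_of_nonneg_right hδd hT
  rw [hR]
  linarith

theorem upper_gen (hS : SlotStepStmt) (hTr : TruncStmt) (hAdd : AddStmt) (hSh : PertShapeStmt)
    (hG : GGStmt) (hCo : ConcStmt) (hE : Sphere.TreeApproxS) (hL : Sphere.LogS) (hD : DomStmt) :
    UpperGenStmt := by
  intro P α A f hα hf r m q hq S₀ hInit ε hε
  have hm : Exps m := ⟨hq.pos, hq.lt_one, hq.strictMono⟩
  have hA : 0 ≤ A := (abs_nonneg _).trans (hf.b0 0)
  obtain ⟨C, hC⟩ := hAdd A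
  obtain ⟨e, he, hkey⟩ := key hS hTr hSh hG hCo hE hL hD P hα hf hq
    (show 0 < ε / (4 * α) by positivity)
  set B : ℝ := A + |C| with hB
  have hB0 : 0 ≤ B := by positivity
  set C1 : ℝ := |S₀| + 3 + 2 * B * α with hC1
  have hC10 : 0 < C1 := by positivity
  set η : ℝ := min (min 1 (ε / 8)) (min (e / 4) (e ^ 2 / (64 * C1))) with hη
  have hη0 : 0 < η := by positivity
  have hη1 : η ≤ 1 := (min_le_left _ _).trans (min_le_left _ _)
  have hη8 : η ≤ ε / 8 := (min_le_left _ _).trans (min_le_right _ _)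
  have hηe : η ≤ e / 4 := (min_le_right _ _).trans (min_le_left _ _)
  set κ : ℝ := Real.sqrt (η * C1) with hκ
  have hκe : 4 * κ + 2 * η ≤ e := by
    have h1 : κ ≤ e / 8 := by
      rw [hκ, show e / 8 = Real.sqrt ((e / 8) ^ 2) by rw [Real.sqrt_sq (by positivity)]]
      refine Real.sqrt_le_sqrt ?_
      have := mul_le_mul_of_nonneg_right
        (((min_le_right _ _).trans (min_le_right _ _)) : η ≤ e ^ 2 / (64 * C1)) hC10.le
      refine this.trans (le_of_eq ?_)
      field_simp; ring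
    linarith
  set R : ℝ := 2 * (κ / η) + 2 with hR
  obtain ⟨a₀, ha₀⟩ := hInit η hη0 R
  obtain ⟨n₀, hn₀, hv⟩ := ((tendsto_natCast_atTop_atTop.eventually (eventually_ge_atTop a₀)).and
    (Up.tendsto_svar.eventually (eventually_ge_nhds (by norm_num : (1 / 2 : ℝ) < 1)))).exists
  set a : ℝ := (n₀ : ℝ)
  have ha : 0 ≤ a := Nat.cast_nonneg _
  have hv0 : 0 < Up.svar a := lt_of_lt_of_le one_half_pos hv
  have hsmall : ∀ᶠ N : ℕ in atTop, 2 * scale N ^ 2 ≤ N * (ε / 8) ∧ 2 * scale N ^ 2 ≤ 2 * (N : ℝ) ∧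
      α * B ≤ N * (ε / 4) := by
    have h1 : Tendsto (fun N : ℕ => 2 * (N : ℝ) ^ (-(1 / 4 : ℝ))) atTop (𝓝 0) := by
      simpa using ((tendsto_rpow_neg_atTop (by norm_num : (0 : ℝ) < 1 / 4)).comp
        tendsto_natCast_atTop_atTop).const_mul 2
    filter_upwards [h1.eventually (eventually_le_nhds (by positivity : (0 : ℝ) < ε / 8)),
      eventually_ge_atTop 1, (tendsto_natCast_atTop_atTop.atTop_mul_const
        (by positivity : (0 : ℝ) < ε / 4)).eventually (eventually_ge_atTop (α * B))] with N h1 h2 h3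
    have hN : (1 : ℝ) ≤ N := by exact_mod_cast h2
    have e1 : scale N ^ 2 = N * (N : ℝ) ^ (-(1 / 4 : ℝ)) := by
      rw [Cavity.scale_sq, mul_comm, ← Real.rpow_add_one (by positivity : (N : ℝ) ≠ 0)]; norm_num
    have h4 : (N : ℝ) ^ (-(1 / 4 : ℝ)) ≤ 1 :=
      Real.rpow_le_one_of_one_le_of_nonpos hN (by norm_num)
    refine ⟨?_, ?_, h3⟩
    · rw [e1, mul_left_comm]; exact mul_le_mul_of_nonneg_left h1 (by positivity)
    · rw [e1, mul_left_comm]
      nlinarith
  filter_upwards [ha₀ a hn₀, hkey a η κ R ha hv0 hη0 (Real.sqrt_nonneg _) hκe, hsmall,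
    eventually_gt_atTop 0] with N hI hK hsm hN0
  have hN : N ≠ 0 := hN0.ne'
  have hNR : (0 : ℝ) < N := Nat.cast_pos.2 hN0
  set s : ℝ := scale N
  set δ : ℝ := slotVar N
  have hδ : 0 < δ := slotVar_pos N
  set Tm : ℕ := slotMax R N
  set d : ℝ := Up.svar a * δ with hd
  have hd0 : 0 < d := mul_pos hv0 hδ
  have hR0 : 0 ≤ R := by positivity
  have hfloor : ∀ T ≤ Tm, δ * (T : ℝ) ≤ R := fun T hT => by
    have h := (Nat.cast_le (α := ℝ)).2 hT
    have h' := Nat.floor_le (a := R / δ) (div_nonneg hR0 hδ.le)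
    rw [le_div_iff₀ hδ] at h'
    calc δ * (T : ℝ) ≤ δ * (Tm : ℝ) := mul_le_mul_of_nonneg_left h hδ.le
      _ ≤ R := by rw [mul_comm]; exact h'
  -- the grid
  set M : ℕ := ⌈α * N * N⌉₊ + 1
  have hM : (0 : ℝ) < M := by positivity
  set h : ℝ := α * N / M with hh
  have h0 : 0 ≤ h := by positivity
  have hN1 : (1 : ℝ) ≤ N := by exact_mod_cast hN0
  have hh1 : h * N ≤ 1 := by
    rw [hh, div_mul_eq_mul_div, div_le_one hM]
    exact (Nat.le_ceil _).trans (by simp [M])
  have hle1 : h ≤ 1 := le_trans (le_mul_of_one_le_right h0 hN1) hh1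
  have hgrid : ∀ i : ℕ, i ≤ M → 0 ≤ (i : ℝ) * h ∧ (i : ℝ) * h ≤ α * N := fun i hi => by
    refine ⟨by positivity, ?_⟩
    calc (i : ℝ) * h ≤ M * h := mul_le_mul_of_nonneg_right (Nat.cast_le.2 hi) h0
      _ = α * N := by rw [hh]; field_simp
  -- crude growth
  have crude : ∀ (T : ℕ) (ks : Fin T → Fin (r + 1)) (x : Fin N → ℝ) (i : ℕ),
      slotFree (P N) f δ a m ks s x 0 - (i : ℝ) * h * B ≤ slotFree (P N) f δ a m ks s x (i * h) ∧
        slotFree (P N) f δ a m ks s x (i * h) ≤ slotFree (P N) f δ a m ks s x 0 + (i : ℝ) * h * B :=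
    fun T ks x i => slot_crude hTr hC hN hf hm hδ.le ha h0 hle1 ks x i
  -- the start
  have start : ∀ (T : ℕ) (ks : Fin T → Fin (r + 1)) (x : Fin N → ℝ), T ≤ Tm →
      (∀ i, x i ∈ Set.Icc (0 : ℝ) 3) →
      slotFree (P N) f δ a m ks s x 0 + d / 2 * (N * ∑ t, (tailSum m q (ks t) - 1)) ≤
        N * (S₀ + η) + 2 * s ^ 2 := by
    intro T ks x hT hx
    have h1 := ((slotFacts (L := N) (P := P N) hTr hSh hN hf hm hδ.le ha s le_rfl ks).gap x
      fun i => abs_le.2 ⟨by linarith [(hx i).1], (hx i).2⟩).2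
    rw [slotFree_zero] at h1
    have h2 := hI T ks δ hδ.le (hfloor T hT)
    linarith
  have base : ∀ i : ℕ, -((i : ℝ) * h * B) ≤
      slotFree (P N) f δ a m (fun t : Fin 0 => t.elim0) s (fun _ : Fin N => (3 / 2 : ℝ)) (i * h) := by
    intro i
    have h1 := (crude 0 (fun t => t.elim0) (fun _ => 3 / 2) i).1
    have h2 := ((slotFacts (L := N) (P := P N) hTr hSh hN hf hm hδ.le ha s le_rfl
      (fun t : Fin 0 => t.elim0)).gap (fun _ => 3 / 2) fun _ => by norm_num).1
    rw [slotFree_empty f δ a hm, logPartS_zero] at h2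
    linarith
  -- the maximisers
  have hex : ∀ i : ℕ, ∃ (T : ℕ) (ks : Fin T → Fin (r + 1)) (x : Fin N → ℝ),
      IsMaxPt (P N) f δ a η m q s (i * h) Tm ks x := fun i =>
    exists_maxPt hTr hSh hN hf hm hδ.le ha s (by positivity) Tm
  choose T ks x hmax using hex
  set V : ℕ → ℝ := fun i => obj (P N) f δ a η m q s (i * h) (ks i) (x i)
  have hpen : ∀ y : Fin N → ℝ,
      0 ≤ 100 * s ^ 2 * ∑ p : Fin N, (1 / 4 : ℝ) ^ (p.val + 1) * (y p - 3 / 2) ^ 2 := fun y =>
    mul_nonneg (by positivity) (Finset.sum_nonneg fun p _ => by positivity)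
  have hobj0 : ∀ i : ℕ, slotFree (P N) f δ a m (fun t : Fin 0 => t.elim0) s
      (fun _ : Fin N => (3 / 2 : ℝ)) (i * h) ≤ V i := fun i => by
    have := (hmax i).2 0 (fun t => t.elim0) (fun _ => 3 / 2) (Nat.zero_le _)
      (fun _ => ⟨by norm_num, by norm_num⟩)
    refine le_trans (le_of_eq ?_) this
    simp [obj]
  -- few slots at a maximiser
  have hTi : ∀ i ≤ M, T i < Tm ∧ η * (d * T i) ≤ κ := by
    intro i hi
    have h1 := base i
    have h2 := hobj0 i
    have h3 := (crude _ (ks i) (x i) i).2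
    have h4 := start _ (ks i) (x i) (hmax i).1.1 (hmax i).1.2
    have h5 := hpen (x i)
    have h6 : (i : ℝ) * h * B ≤ α * N * B := mul_le_mul_of_nonneg_right (hgrid i hi).2 hB0
    simp only [V, obj, ← hd] at h2
    have h7 : (N : ℝ) * (η * (d * T i) ^ 2) ≤ N * C1 := by
      have hS : (N : ℝ) * S₀ ≤ N * |S₀| := mul_le_mul_of_nonneg_left (le_abs_self _) hNR.le
      have hη' : (N : ℝ) * η ≤ N * 1 := mul_le_mul_of_nonneg_left hη1 hNR.le
      rw [hC1]
      linarith [hsm.2.1]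
    obtain ⟨h9, h10⟩ := slots_few (δ := δ) hNR hη0 hd0.le (Nat.cast_nonneg (T i))
      (by rw [hd]; linarith [mul_le_mul_of_nonneg_right hv hδ.le]) (slotVar_le_one N) h7 hR
    refine ⟨?_, h9⟩
    refine Nat.le_floor ?_
    rw [le_div_iff₀ hδ]
    push_cast
    linarith
  have step : ∀ i < M, V (i + 1) ≤ V i + (h * (patValue f m q + ε / (4 * α)) + C * h ^ 2) := by
    intro i hi
    obtain ⟨hT, hκ'⟩ := hTi (i + 1) hi
    have hμ := hgrid (i + 1) hi
    have e1 : ((i + 1 : ℕ) : ℝ) * h = i * h + h := by push_cast; ring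
    have h1 := hK _ hμ.1 hμ.2 _ (ks (i + 1)) (x (i + 1)) (hmax (i + 1)) hT
      (hfloor _ (hmax (i + 1)).1.1) hκ'
    rw [e1] at h1
    have h2 := obj_slot_step hTr hC hN hf hm hδ.le ha (by positivity : 0 ≤ (i : ℝ) * h) h0 hle1
      (ks (i + 1)) (x (i + 1)) h1
    have h3 := (hmax i).2 _ (ks (i + 1)) (x (i + 1)) (hmax (i + 1)).1.1 (hmax (i + 1)).1.2
    simp only [V, obj, e1] at h2 h3 ⊢
    linarith
  have total : ∀ i ≤ M, V i ≤ V 0 + i * (h * (patValue f m q + ε / (4 * α)) + C * h ^ 2) := by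
    intro i
    induction i with
    | zero => simp
    | succ i ih =>
      intro hi
      have := ih (Nat.le_of_succ_le hi)
      have := step i hi
      push_cast
      linarith
  have hV0 : V 0 ≤ N * (S₀ + η) + 2 * s ^ 2 := by
    have h1 := start _ (ks 0) (x 0) (hmax 0).1.1 (hmax 0).1.2
    have h2 := hpen (x 0)
    have h3 : 0 ≤ (N : ℝ) * η * (d * T 0) ^ 2 := by positivity
    simp only [V, obj, Nat.cast_zero, zero_mul, ← hd]
    linarith
  -- the end
  have hMh : (M : ℝ) * h = α * N := by rw [hh]; field_simp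
  have hfin : Sphere.logPartS (P N) f 0 (fun _ : Fin N => 0) (α * N) ≤ V M := by
    have h1 := ((slotFacts (L := N) (P := P N) hTr hSh hN hf hm hδ.le ha s
      (show 0 ≤ α * (N : ℝ) by positivity) (fun t : Fin 0 => t.elim0)).gap (fun _ => 3 / 2)
        fun _ => by norm_num).1
    rw [slotFree_empty f δ a hm, logPartS_flat] at h1
    refine h1.trans ?_
    have := hobj0 M
    rwa [hMh] at this
  have h5 := total M le_rfl
  have e2 : (M : ℝ) * (h * (patValue f m q + ε / (4 * α)) + C * h ^ 2) =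
      α * N * patValue f m q + N * (ε / 4) + α * N * (C * h) := by
    calc _ = (M : ℝ) * h * (patValue f m q + ε / (4 * α)) + (M : ℝ) * h * (C * h) := by ring
      _ = _ := by rw [hMh]; field_simp
  have h6 : α * N * (C * h) ≤ N * (ε / 4) := by
    have h7 : (N : ℝ) * (C * h) ≤ B := by
      calc (N : ℝ) * (C * h) = C * (h * N) := by ring
        _ ≤ |C| * (h * N) := mul_le_mul_of_nonneg_right (le_abs_self C) (by positivity)
        _ ≤ |C| * 1 := mul_le_mul_of_nonneg_left hh1 (abs_nonneg C)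
        _ ≤ B := by rw [hB]; linarith
    calc α * N * (C * h) = α * ((N : ℝ) * (C * h)) := by ring
      _ ≤ α * B := mul_le_mul_of_nonneg_left h7 hα.le
      _ ≤ _ := hsm.2.2
  have h8 : (N : ℝ) * η ≤ N * (ε / 8) := mul_le_mul_of_nonneg_left hη8 hNR.le
  linarith [hsm.1, mul_pos hNR hε]

end Vale.Agent.P157.Parisi.Full
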