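import Vale.Agent.P157.Full.UpperMain.Obj
import Vale.Agent.P157.Parisi.Cavity.Change

/-!
At a maximiser a new pattern is worth at most the pattern part at `q`.
-/

noncomputable section

open MeasureTheory ProbabilityTheory Filter
open scoped BigOperators NNReal ENNReal Topology

namespace Vale.Agent.P157.Parisi.Full

open Vale.Agent.P168 (cascFilter)
open Vale.Agent.P168.Cascade (Exps)
open Vale.Agent.P168.Upper (cascFilter_neBot)

/-- The variance of one slot. -/
def slotVar (N : ℕ) : ℝ := 1 / ((N : ℝ) + 1) ^ 6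

/-- The number of slots allowed. -/
def slotMax (R : ℝ) (N : ℕ) : ℕ := ⌊R / slotVar N⌋₊

lemma slotVar_pos (N : ℕ) : 0 < slotVar N := by unfold slotVar; positivity

lemma slotVar_le_one (N : ℕ) : slotVar N ≤ 1 := by
  rw [slotVar, div_le_one (by positivity)]
  exact one_le_pow₀ (by linarith [N.cast_nonneg (α := ℝ)])

lemma slot_small {a : ℝ} (ha : 0 ≤ a) (N : ℕ) :
    Real.sqrt (slotVar N) * (N * a) ≤ a / ((N : ℝ) + 1) ∧
      (Real.sqrt (slotVar N) * (N * a)) ^ 3 / (slotVar N * N) ≤ a ^ 3 / ((N : ℝ) + 1) := by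
  have hN : (0 : ℝ) ≤ N := N.cast_nonneg
  have h1 : (1 : ℝ) ≤ (N : ℝ) + 1 := by linarith
  have hs : Real.sqrt (slotVar N) = 1 / ((N : ℝ) + 1) ^ 3 := by
    rw [slotVar, show 1 / ((N : ℝ) + 1) ^ 6 = (1 / ((N : ℝ) + 1) ^ 3) ^ 2 by rw [div_pow]; ring,
      Real.sqrt_sq (by positivity)]
  rw [hs]
  refine ⟨?_, ?_⟩
  · rw [div_mul_eq_mul_div, one_mul, div_le_div_iff₀ (by positivity) (by positivity)]
    have : (N : ℝ) * ((N : ℝ) + 1) ≤ ((N : ℝ) + 1) ^ 3 := by
      nlinarith [sq_nonneg (N : ℝ), mul_nonneg hN hN, mul_nonneg (mul_nonneg hN hN) hN]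
    nlinarith [mul_le_mul_of_nonneg_left this ha]
  · rcases eq_or_ne (N : ℝ) 0 with h | h
    · rw [h]; simp only [zero_mul, mul_zero, div_zero]; positivity
    have e : (1 / ((N : ℝ) + 1) ^ 3 * (N * a)) ^ 3 / (slotVar N * N) =
        a ^ 3 * (N ^ 2 / ((N : ℝ) + 1) ^ 3) := by
      rw [slotVar]; field_simp
    rw [e, div_eq_mul_one_div (a ^ 3) ((N : ℝ) + 1)]
    refine mul_le_mul_of_nonneg_left ?_ (by positivity)
    rw [div_le_div_iff₀ (by positivity) (by positivity)]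
    nlinarith

lemma tendsto_gg_rate (C : ℝ) :
    Tendsto (fun N : ℕ => (1 + Real.sqrt (C * (Real.sqrt N + scale N + 1))) / scale N) atTop
      (𝓝 0) := by
  have h : Tendsto (fun N : ℕ => (1 + Real.sqrt (3 * |C|)) * (N : ℝ) ^ (-(1 / 8 : ℝ))) atTop (𝓝 0) := by
    simpa using ((tendsto_rpow_neg_atTop (by norm_num : (0 : ℝ) < 1 / 8)).comp
      tendsto_natCast_atTop_atTop).const_mul (1 + Real.sqrt (3 * |C|))
  refine squeeze_zero' (Eventually.of_forall fun N => div_nonneg (add_nonneg zero_le_one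
    (Real.sqrt_nonneg _)) (Real.rpow_nonneg (Nat.cast_nonneg N) _)) ?_ h
  filter_upwards [eventually_ge_atTop 1] with N hN
  have hN1 : (1 : ℝ) ≤ N := by exact_mod_cast hN
  have hN0 : (0 : ℝ) < N := by linarith
  have e1 : Real.sqrt (N : ℝ) = (N : ℝ) ^ (1 / 2 : ℝ) := Real.sqrt_eq_rpow _
  have hle : Real.sqrt (N : ℝ) + scale N + 1 ≤ 3 * (N : ℝ) ^ (1 / 2 : ℝ) := by
    have h1 : scale N ≤ (N : ℝ) ^ (1 / 2 : ℝ) :=
      Real.rpow_le_rpow_of_exponent_le hN1 (by norm_num)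
    have h2 : (1 : ℝ) ≤ (N : ℝ) ^ (1 / 2 : ℝ) := Real.one_le_rpow hN1 (by norm_num)
    linarith [e1.le]
  have h3 : Real.sqrt (C * (Real.sqrt N + scale N + 1)) ≤
      Real.sqrt (3 * |C|) * (N : ℝ) ^ (1 / 4 : ℝ) := by
    calc _ ≤ Real.sqrt (3 * |C| * (N : ℝ) ^ (1 / 2 : ℝ)) := by
          refine Real.sqrt_le_sqrt ?_
          have h0 : 0 ≤ Real.sqrt (N : ℝ) + scale N + 1 := by
            have := Real.rpow_nonneg (Nat.cast_nonneg N) (3 / 8 : ℝ)
            unfold scale; positivity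
          nlinarith [mul_le_mul_of_nonneg_right (le_abs_self C) h0,
            mul_le_mul_of_nonneg_left hle (abs_nonneg C)]
      _ = _ := by
          rw [Real.sqrt_mul (by positivity)]
          congr 1
          rw [Real.sqrt_eq_rpow, ← Real.rpow_mul hN0.le]
          norm_num
  have hs : 0 < scale N := Real.rpow_pos_of_pos hN0 _
  rw [div_le_iff₀ hs]
  conv_rhs => rw [scale, mul_assoc, ← Real.rpow_add hN0,
    show -(1 / 8 : ℝ) + 3 / 8 = 1 / 4 by norm_num]
  have h4 : (1 : ℝ) ≤ (N : ℝ) ^ (1 / 4 : ℝ) := Real.one_le_rpow hN1 (by norm_num)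
  nlinarith

variable {r : ℕ} {α A : ℝ} {f : ℝ → ℝ} {m : Fin r → ℝ} {q : Fin (r + 1) → ℝ}

theorem key (hS : SlotStepStmt) (hTr : TruncStmt) (hSh : PertShapeStmt) (hG : GGStmt)
    (hC : ConcStmt) (hE : Sphere.TreeApproxS) (hL : Sphere.LogS) (hD : DomStmt)
    (P : ∀ N, Sphere.Pts N) (hα : 0 < α) (hf : Smooth f A) (hq : IsPath m q) {ε : ℝ}
    (hε : 0 < ε) :
    ∃ e > 0, ∀ a η κ R : ℝ, 0 ≤ a → 0 < Up.svar a → 0 < η → 0 ≤ κ → 4 * κ + 2 * η ≤ e →
      ∀ᶠ N : ℕ in atTop, ∀ μ : ℝ, 0 ≤ μ → μ ≤ α * N →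
        ∀ (T : ℕ) (ks : Fin T → Fin (r + 1)) (x : Fin N → ℝ),
          IsMaxPt (P N) f (slotVar N) a η m q (scale N) μ (slotMax R N) ks x →
          T < slotMax R N → slotVar N * T ≤ R → η * (Up.svar a * slotVar N * T) ≤ κ →
          ∀ᶠ n in cascFilter r,
            (baseState (truncBase (P N) (slotVar N) a m ks n) f (scale N) x μ).logMean f 1 ≤
              patValue f m q + ε := by
  have := cascFilter_neBot r
  have hm : Exps m := ⟨hq.pos, hq.lt_one, hq.strictMono⟩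
  obtain ⟨e, he, hDom⟩ := hD f A hf (ε / 2) (half_pos hε)
  obtain ⟨J, hJ⟩ := exists_nat_gt (8 / e)
  have hJ0 : (0 : ℝ) < J := lt_trans (by positivity) hJ
  refine ⟨e / 4, by positivity, fun a η κ R ha hv hη hκ hek => ?_⟩
  obtain ⟨Cc, hCc, hconc⟩ := hC r m hm α A R a ha
  choose Cg hgg using hG
  by_contra hcon
  rw [not_eventually] at hcon
  have hsmall : ∀ᶠ N : ℕ in atTop, a / ((N : ℝ) + 1) ≤ 1 / 10 ∧
      40 * (a ^ 3 / ((N : ℝ) + 1)) / Up.svar a ≤ e / 8 := by
    have h1 : Tendsto (fun N : ℕ => a / ((N : ℝ) + 1)) atTop (𝓝 0) :=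
      tendsto_const_nhds.div_atTop (tendsto_atTop_add_const_right _ _ tendsto_natCast_atTop_atTop)
    have h2 : Tendsto (fun N : ℕ => 40 * (a ^ 3 / ((N : ℝ) + 1)) / Up.svar a) atTop (𝓝 0) := by
      simpa using ((tendsto_const_nhds.div_atTop (tendsto_atTop_add_const_right _ _
        (tendsto_natCast_atTop_atTop (R := ℝ)))).const_mul 40).div_const (Up.svar a)
    exact (h1.eventually (eventually_le_nhds (by norm_num))).and
      (h2.eventually (eventually_le_nhds (by positivity)))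
  obtain ⟨Ns, hNs, hbad⟩ := extraction_of_frequently_atTop
    (hcon.and_eventually (hsmall.and (eventually_gt_atTop 0)))
  have h1 : ∀ j, ∃ μ : ℝ, 0 ≤ μ ∧ μ ≤ α * Ns j ∧
      ∃ (T : ℕ) (ks : Fin T → Fin (r + 1)) (x : Fin (Ns j) → ℝ),
        IsMaxPt (P (Ns j)) f (slotVar (Ns j)) a η m q (scale (Ns j)) μ (slotMax R (Ns j)) ks x ∧
        T < slotMax R (Ns j) ∧ slotVar (Ns j) * T ≤ R ∧
        η * (Up.svar a * slotVar (Ns j) * T) ≤ κ ∧
        ∃ᶠ n in cascFilter r, patValue f m q + ε <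
          (baseState (truncBase (P (Ns j)) (slotVar (Ns j)) a m ks n) f (scale (Ns j)) x μ).logMean f 1 := by
    intro j
    have h := (hbad j).1
    simp only [not_forall, not_eventually, not_le] at h
    obtain ⟨μ, hμ0, hμ1, T, ks, x, h1, h2, h3, h4, h5⟩ := h
    exact ⟨μ, hμ0, hμ1, T, ks, x, h1, h2, h3, h4, h5⟩
  choose μ hμ0 hμ1 T ks x hmax hT hTR hTκ hfreq using h1
  have hN : ∀ j, Ns j ≠ 0 := fun j => (hbad j).2.2.ne'
  have hs : ∀ j, 0 < scale (Ns j) := fun j =>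
    Real.rpow_pos_of_pos (Nat.cast_pos.2 (hbad j).2.2) _
  set s : ℕ → ℝ := fun j => scale (Ns j)
  set St : ∀ j, (Fin r → ℕ) → Sphere.State (P (Ns j)) := fun j n =>
    baseState (truncBase (P (Ns j)) (slotVar (Ns j)) a m (ks j) n) f (s j) (x j) (μ j)
  have hfacts : ∀ j, SlotFacts (L := Ns j) (P (Ns j)) f (slotVar (Ns j)) a m (s j) (μ j) (ks j) :=
    fun j => slotFacts hTr hSh (hN j) hf hm (slotVar_pos _).le ha _ (hμ0 j) _
  have hx : ∀ j p, x j p ∈ Set.Icc (1 : ℝ) 2 := fun j p => (hmax j).coord (hfacts j) (hs j) p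
  have hx3 : ∀ j p, |x j p| ≤ 3 := fun j p =>
    abs_le.2 ⟨by linarith [(hx j p).1], by linarith [(hx j p).2]⟩
  set φ : ℕ → ℝ := fun j => Cc * (Real.sqrt (Ns j) + s j + 1)
  have hφ0 : ∀ j, 0 ≤ φ j := fun j => by
    have := (hs j).le
    positivity
  -- the identities along the truncations
  have hgg' : ∀ (j : ℕ) (p : Fin (Ns j)), ∀ᶠ n in cascFilter r, Sphere.GGWithin (St j n) p.val
      (Cg p.val * (1 + Real.sqrt (φ j)) / s j + 1 / ((j : ℝ) + 1)) := by
    intro j p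
    obtain ⟨ε', hε', Y, hY, hB⟩ := hgg p.val (Ns j) (Ns j) (P (Ns j)) f A (hN j) hf (s j) (μ j)
      (hs j) (hμ0 j) (x j) p rfl (hx3 j) (hx j p)
      (200 * s j ^ 2 * (1 / 4 : ℝ) ^ (p.val + 1) * (x j p - 3 / 2)) (φ j) (hφ0 j)
      (1 / ((j : ℝ) + 1)) (by positivity)
    have lim : ∀ z : Fin (Ns j) → ℝ, Tendsto (fun n => baseFree (truncBase (P (Ns j)) (slotVar (Ns j)) a m (ks j) n)
        f (s j) z (μ j)) (cascFilter r)
        (𝓝 (slotFree (P (Ns j)) f (slotVar (Ns j)) a m (ks j) (s j) z (μ j))) := fun z =>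
      (hTr _ _ _ r (P (Ns j)) f A (hN j) hf m hm _ a (slotVar_pos _).le ha (s j) z (μ j) (hμ0 j)
        (ks j)).1
    have hcap : ∀ y ∈ Y, ∀ᶠ n in cascFilter r,
        baseFree (truncBase (P (Ns j)) (slotVar (Ns j)) a m (ks j) n) f (s j)
            (Function.update (x j) p y) (μ j) ≤
          baseFree (truncBase (P (Ns j)) (slotVar (Ns j)) a m (ks j) n) f (s j) (x j) (μ j) +
            200 * s j ^ 2 * (1 / 4 : ℝ) ^ (p.val + 1) * (x j p - 3 / 2) * (y - x j p) +
            100 * s j ^ 2 * (1 / 4) ^ (p.val + 1) * (y - x j p) ^ 2 + ε' := by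
      intro y hy
      have h := (hmax j).cap p (hY hy)
      filter_upwards [(lim (Function.update (x j) p y)).eventually
          (eventually_le_nhds (lt_add_of_pos_right _ (half_pos hε'))),
        (lim (x j)).eventually (eventually_ge_nhds (sub_lt_self _ (half_pos hε')))] with n h1 h2
      linarith
    have hdev : ∀ y ∈ Y, ∀ᶠ n in cascFilter r,
        baseDev (truncBase (P (Ns j)) (slotVar (Ns j)) a m (ks j) n) f (s j)
          (Function.update (x j) p y) (μ j) ≤ φ j := fun y hy =>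
      hconc _ _ _ (P (Ns j)) f (hN j) hf _ (slotVar_pos _).le (hTR j) (ks j) (s j) (μ j) (hs j).le
        (hμ0 j) (by linarith [hμ1 j]) _ fun i => by
          rcases eq_or_ne i p with rfl | hi
          · rw [Function.update_self]
            exact abs_le.2 ⟨by linarith [(hY hy).1], (hY hy).2⟩
          · rw [Function.update_of_ne hi]; exact hx3 j i
    filter_upwards [(eventually_all_finset Y).2 hcap, (eventually_all_finset Y).2 hdev] with n h1 h2
    exact hB _ h1 h2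
  -- the overlaps on the levels
  have hB : ∀ (j : ℕ) (k : Fin (r + 1)) (i : Fin (J + 1)), ∀ᶠ n in cascFilter r,
      tailSum m q k - (i.val : ℝ) / J * tailSum m (fun _ => 1) k ≤
        (St j n).repMean 2 (fun σ => max (Sphere.overlap (σ 0) (σ 1) - (i.val : ℝ) / J) 0) +
          (3 * e / 8 + 1 / ((j : ℝ) + 1)) := by
    intro j k i
    obtain ⟨hs1, hs2⟩ := slot_small ha (Ns j)
    have h := (hmax j).tail_le hS (hT j) (hN j) hf hm (slotVar_pos _) ha hv
      (hs1.trans (hbad j).2.1.1) (hμ0 j) k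
    have e1 : 40 * (Real.sqrt (slotVar (Ns j)) * ((Ns j : ℝ) * a)) ^ 3 /
        (Up.svar a * slotVar (Ns j) * (Ns j : ℝ)) =
        40 * ((Real.sqrt (slotVar (Ns j)) * ((Ns j : ℝ) * a)) ^ 3 /
          (slotVar (Ns j) * (Ns j : ℝ))) / Up.svar a := by
      ring
    have e2 : 40 * ((Real.sqrt (slotVar (Ns j)) * ((Ns j : ℝ) * a)) ^ 3 /
        (slotVar (Ns j) * (Ns j : ℝ))) / Up.svar a ≤ e / 8 :=
      (div_le_div_of_nonneg_right (mul_le_mul_of_nonneg_left hs2 (by norm_num)) hv.le).trans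
        (hbad j).2.1.2
    have e3 : Up.svar a * slotVar (Ns j) ≤ 1 :=
      mul_le_one₀ (Up.svar_le_one ha) (slotVar_pos _).le (slotVar_le_one _)
    have e4 : 2 * η * (Up.svar a * slotVar (Ns j) * (2 * (T j : ℝ) + 1)) ≤ e / 4 := by
      nlinarith [hTκ j, mul_le_mul_of_nonneg_left e3 hη.le]
    filter_upwards [(hTr _ _ _ r (P (Ns j)) f A (hN j) hf m hm _ a (slotVar_pos _).le ha (s j) (x j)
      (μ j) (hμ0 j) (ks j)).2 k ((i.val : ℝ) / J) (by positivity) (1 / ((j : ℝ) + 1))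
      (by positivity)] with n hn
    linarith [e1.le]
  -- one truncation for each `j`
  have hsel : ∀ j, ∃ n, patValue f m q + ε < (St j n).logMean f 1 ∧
      (∀ p : Fin (Ns j), Sphere.GGWithin (St j n) p.val
        (Cg p.val * (1 + Real.sqrt (φ j)) / s j + 1 / ((j : ℝ) + 1))) ∧
      ∀ (k : Fin (r + 1)) (i : Fin (J + 1)),
        tailSum m q k - (i.val : ℝ) / J * tailSum m (fun _ => 1) k ≤
          (St j n).repMean 2 (fun σ => max (Sphere.overlap (σ 0) (σ 1) - (i.val : ℝ) / J) 0) +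
            (3 * e / 8 + 1 / ((j : ℝ) + 1)) := fun j =>
    ((hfreq j).and_eventually ((eventually_all.2 (hgg' j)).and
      (eventually_all.2 fun k => eventually_all.2 fun i => hB j k i))).exists
  choose n hn1 hn2 hn3 using hsel
  set S : ∀ j, Sphere.State (P (Ns j)) := fun j => St j (n j)
  have hgood : ∀ j, (S j).IsGood := fun j => baseState_good _ hf _
  have hNt : Tendsto Ns atTop atTop := hNs.tendsto_atTop
  set dl : ℕ → ℕ → ℝ := fun j p =>
    if p < Ns j then Cg p * (1 + Real.sqrt (φ j)) / s j + 1 / ((j : ℝ) + 1) else 2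
  have hdl : ∀ p, Tendsto (fun j => dl j p) atTop (𝓝 0) := by
    intro p
    have h1 : Tendsto (fun j => Cg p * ((1 + Real.sqrt (φ j)) / s j) + 1 / ((j : ℝ) + 1)) atTop
        (𝓝 0) := by
      simpa using (((tendsto_gg_rate Cc).comp hNt).const_mul (Cg p)).add
        tendsto_one_div_add_atTop_nhds_zero_nat
    refine h1.congr' ?_
    filter_upwards [hNt.eventually (eventually_gt_atTop p)] with j hj
    simp only [dl, if_pos hj]
    ring
  obtain ⟨ψ, ξ, hψ, hap⟩ := hE Ns (fun j => P (Ns j)) S hNt hgood dl hdl fun j p => by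
    by_cases hp : p < Ns j
    · simpa only [dl, if_pos hp] using hn2 j ⟨p, hp⟩
    · simpa only [dl, if_neg hp] using gg_two (hgood j) p
  have hlog := hL A f hf _ _ _ ξ (fun j => Nat.pos_of_ne_zero (hN (ψ j))) (fun j => hgood (ψ j)) hap 1
  have hexc : ∀ i : Fin (J + 1), Tendsto (fun j => (S (ψ j)).repMean 2
      (fun σ => max (Sphere.overlap (σ 0) (σ 1) - (i.val : ℝ) / J) 0) -
        excess (ξ j).m (ξ j).q ((i.val : ℝ) / J)) atTop (𝓝 0) := fun i => by
    have h := hap 2 (fun O => max (O 0 1 - (i.val : ℝ) / J) 0)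
      (by fun_prop)
    refine h.congr fun j => ?_
    rw [treeExp_excess]
    rfl
  have hjz : Tendsto (fun j => 1 / ((ψ j : ℝ) + 1)) atTop (𝓝 0) :=
    tendsto_one_div_add_atTop_nhds_zero_nat.comp hψ.tendsto_atTop
  obtain ⟨j, hj1, hj2, hj3⟩ := ((hjz.eventually (eventually_le_nhds (by positivity : (0 : ℝ) < e / 8))).and
    ((eventually_all.2 fun i => (hexc i).eventually (eventually_le_nhds (by positivity : (0 : ℝ) < e / 8))).and
      (hlog.eventually (eventually_le_nhds (half_pos hε))))).exists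
  have hdom := hDom ⟨r, m, q, hq⟩ (ξ j) fun b hb => by
    set i : Fin (J + 1) := ⟨⌊b * J⌋₊, Nat.lt_succ_of_le (Nat.floor_le_of_le
      (mul_le_of_le_one_left hJ0.le hb.2))⟩
    have hib : |b - (i.val : ℝ) / J| ≤ 1 / J := by
      have h1 := Nat.floor_le (mul_nonneg hb.1 hJ0.le)
      have h2 := Nat.lt_floor_add_one (b * J)
      rw [show b - (i.val : ℝ) / J = (b * J - i.val) / J by field_simp, abs_div, abs_of_pos hJ0]
      exact div_le_div_of_nonneg_right (abs_le.2 ⟨by simp only [i]; linarith,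
        by simp only [i]; linarith⟩) hJ0.le
    have h1 : excess m q ((i.val : ℝ) / J) ≤ (S (ψ j)).repMean 2
        (fun σ => max (Sphere.overlap (σ 0) (σ 1) - (i.val : ℝ) / J) 0) +
          (3 * e / 8 + 1 / ((ψ j : ℝ) + 1)) := by
      rcases excess_eq_tail m hq.mono ((i.val : ℝ) / J) with h | ⟨k, h⟩
      · rw [h]
        refine add_nonneg (integral_nonneg fun ω => Finset.sum_nonneg fun σ _ =>
          mul_nonneg (Finset.prod_nonneg fun l _ => (hgood (ψ j)).nonneg ω _) (le_max_right _ _))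
          (by positivity)
      · rw [h]; exact hn3 (ψ j) k i
    have h2 := (abs_le.1 (abs_excess_sub_le hm q b ((i.val : ℝ) / J))).2
    have hmξ : Exps (ξ j).m :=
      ⟨(ξ j).isPath.pos, (ξ j).isPath.lt_one, (ξ j).isPath.strictMono⟩
    have h3 := (abs_le.1 (abs_excess_sub_le hmξ (ξ j).q ((i.val : ℝ) / J) b)).2
    rw [abs_sub_comm] at h3
    have h4 : 1 / (J : ℝ) ≤ e / 8 := by
      rw [div_le_div_iff₀ hJ0 (by norm_num)]
      rw [div_lt_iff₀ he] at hJ
      linarith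
    linarith [hj2 i]
  have := hn1 (ψ j)
  simp only [Nat.cast_one, one_mul] at hj3
  linarith

end Vale.Agent.P157.Parisi.Full
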