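import Vale.Agent.P157.Full.UpperMain.Tools

/-!
The objective of the upper bound: its maximisers and what is true there.
-/

noncomputable section

open MeasureTheory ProbabilityTheory Filter
open scoped BigOperators NNReal ENNReal Topology

namespace Vale.Agent.P157.Parisi.Full

open Vale.Agent.P168 (cascFilter)
open Vale.Agent.P168.Cascade (Exps)
open Vale.Agent.P168.Upper (cascFilter_neBot)

variable {r N L T : ℕ} {P : Sphere.Pts N} {f : ℝ → ℝ} {A δ a s μ η : ℝ} {m : Fin r → ℝ}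
  {q : Fin (r + 1) → ℝ}

/-- The free energy with slots against the linear pairing with `q` and two quadratic penalties. -/
def obj (P : Sphere.Pts N) (f : ℝ → ℝ) (δ a η : ℝ) (m : Fin r → ℝ) (q : Fin (r + 1) → ℝ) (s μ : ℝ)
    (ks : Fin T → Fin (r + 1)) (x : Fin N → ℝ) : ℝ :=
  slotFree P f δ a m ks s x μ + Up.svar a * δ / 2 * (N * ∑ t, (tailSum m q (ks t) - 1)) -
    N * η * (Up.svar a * δ * T) ^ 2 -
    100 * s ^ 2 * ∑ p : Fin N, (1 / 4 : ℝ) ^ (p.val + 1) * (x p - 3 / 2) ^ 2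

/-- A point of maximum over at most `Tm` slots and the box `[0, 3]`. -/
def IsMaxPt (P : Sphere.Pts N) (f : ℝ → ℝ) (δ a η : ℝ) (m : Fin r → ℝ) (q : Fin (r + 1) → ℝ)
    (s μ : ℝ) (Tm : ℕ) (ks : Fin T → Fin (r + 1)) (x : Fin N → ℝ) : Prop :=
  (T ≤ Tm ∧ ∀ i, x i ∈ Set.Icc (0 : ℝ) 3) ∧
    ∀ (T' : ℕ) (ks' : Fin T' → Fin (r + 1)) (x' : Fin N → ℝ), T' ≤ Tm →
      (∀ i, x' i ∈ Set.Icc (0 : ℝ) 3) → obj P f δ a η m q s μ ks' x' ≤ obj P f δ a η m q s μ ks x

/-! ### The free energy with slots as a limit -/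

/-- What the limit inherits from the systems over truncated cascades. -/
structure SlotFacts (P : Sphere.Pts N) (f : ℝ → ℝ) (δ a : ℝ) (m : Fin r → ℝ) (s μ : ℝ)
    (ks : Fin T → Fin (r + 1)) : Prop where
  gap : ∀ x : Fin L → ℝ, (∀ i, |x i| ≤ 3) →
    slotFree P f δ a m ks s (fun _ : Fin L => 0) μ ≤ slotFree P f δ a m ks s x μ ∧
      slotFree P f δ a m ks s x μ ≤ slotFree P f δ a m ks s (fun _ : Fin L => 0) μ + 2 * s ^ 2
  mono : ∀ (x : Fin L → ℝ) (p : Fin L) (y z : ℝ), 0 ≤ y → y ≤ z →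
    slotFree P f δ a m ks s (Function.update x p y) μ ≤
      slotFree P f δ a m ks s (Function.update x p z) μ
  one : ∀ (x : Fin L → ℝ) (p : Fin L) (y : ℝ),
    slotFree P f δ a m ks s (Function.update x p y) μ ≤
      slotFree P f δ a m ks s (Function.update x p 0) μ + s ^ 2 * (1 / 4) ^ (p.val + 1) * y ^ 2 / 2
  cont : Continuous fun x : Fin L → ℝ => slotFree P f δ a m ks s x μ

lemma slotFacts (hTr : TruncStmt) (hSh : PertShapeStmt) (hN : N ≠ 0) (hf : Smooth f A)
    (hm : Exps m) (hδ : 0 ≤ δ) (ha : 0 ≤ a) (s : ℝ) (hμ : 0 ≤ μ) (ks : Fin T → Fin (r + 1)) :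
    SlotFacts (L := L) P f δ a m s μ ks := by
  have := cascFilter_neBot r
  obtain ⟨K, hK⟩ := hSh N L P f A hN hf s μ hμ
  have lim : ∀ x : Fin L → ℝ, Tendsto (fun n => baseFree (truncBase P δ a m ks n) f s x μ)
      (cascFilter r) (𝓝 (slotFree P f δ a m ks s x μ)) := fun x =>
    (hTr N L T r P f A hN hf m hm δ a hδ ha s x μ hμ ks).1
  have hev : ∀ (x : Fin L → ℝ) (p : Fin L) (y : ℝ),
      slotFree P f δ a m ks s (Function.update x p (-y)) μ =
        slotFree P f δ a m ks s (Function.update x p y) μ := fun x p y =>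
    tendsto_nhds_unique (lim _) ((lim (Function.update x p y)).congr fun n =>
      (((hK (truncBase P δ a m ks n)).2.1 x p).2.1 y).symm)
  have hcv : ∀ (x : Fin L → ℝ) (p : Fin L),
      ConvexOn ℝ Set.univ fun y => slotFree P f δ a m ks s (Function.update x p y) μ := fun x p =>
    ⟨convex_univ, fun y _ z _ u v hu hv huv => le_of_tendsto_of_tendsto' (lim _)
      (((lim _).const_mul u).add ((lim _).const_mul v)) fun n => by
        simpa using (((hK (truncBase P δ a m ks n)).2.1 x p).1).2 (Set.mem_univ y) (Set.mem_univ z)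
          hu hv huv⟩
  refine ⟨fun x hx => ⟨le_of_tendsto_of_tendsto' (lim _) (lim _) fun n =>
      ((hK (truncBase P δ a m ks n)).1 x hx).1,
    le_of_tendsto_of_tendsto' (lim _) ((lim _).add_const _) fun n =>
      ((hK (truncBase P δ a m ks n)).1 x hx).2⟩, fun x p y z hy hyz => ?_,
    fun x p y => le_of_tendsto_of_tendsto' (lim _) ((lim _).add_const _) fun n =>
      ((hK (truncBase P δ a m ks n)).2.1 x p).2.2 y, ?_⟩
  · rcases hyz.eq_or_lt with rfl | hlt
    · exact le_rfl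
    have hz : 0 < z := hy.trans_lt hlt
    have h := (hcv x p).2 (Set.mem_univ (-z)) (Set.mem_univ z)
      (show 0 ≤ (z - y) / (2 * z) by apply div_nonneg <;> linarith)
      (show 0 ≤ (z + y) / (2 * z) by apply div_nonneg <;> linarith) (by field_simp; ring)
    have e : (z - y) / (2 * z) * -z + (z + y) / (2 * z) * z = y := by field_simp; ring
    simp only [smul_eq_mul, e, hev] at h
    refine h.trans (le_of_eq ?_)
    rw [← add_mul]
    field_simp
    ring
  · have hb : ∀ x x' : Fin L → ℝ,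
        |slotFree P f δ a m ks s x μ - slotFree P f δ a m ks s x' μ| ≤
          |K| * ∑ i, |x i - x' i| := fun x x' =>
      le_of_tendsto' ((lim x).sub (lim x')).abs fun n =>
        ((hK (truncBase P δ a m ks n)).2.2 x x').trans
          (mul_le_mul_of_nonneg_right (le_abs_self K) (Finset.sum_nonneg fun i _ => abs_nonneg _))
    rw [continuous_iff_continuousAt]
    intro x
    rw [ContinuousAt, tendsto_iff_norm_sub_tendsto_zero]
    refine squeeze_zero (fun _ => norm_nonneg _)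
      (fun y => (Real.norm_eq_abs _).le.trans (hb y x)) ?_
    have hc : Continuous fun y : Fin L → ℝ => |K| * ∑ i, |y i - x i| :=
      continuous_const.mul (continuous_finsetSum _ fun i _ =>
        ((continuous_apply i).sub continuous_const).abs)
    simpa using hc.tendsto x

/-- One step in the number of patterns. -/
lemma obj_slot_step (hTr : TruncStmt) {C : ℝ} (hC : ∀ (N L : ℕ) (P : Sphere.Pts N) (B : Base P)
      (f : ℝ → ℝ), Smooth f A → ∀ (s : ℝ) (x : Fin L → ℝ) (μ h : ℝ), 0 ≤ μ → 0 ≤ h → h ≤ 1 →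
        |baseFree B f s x (μ + h) - baseFree B f s x μ -
          h * (baseState B f s x (μ + h)).logMean f 1| ≤ C * h ^ 2)
    (hN : N ≠ 0) (hf : Smooth f A) (hm : Exps m) (hδ : 0 ≤ δ) (ha : 0 ≤ a) (hμ : 0 ≤ μ) {h : ℝ}
    (h0 : 0 ≤ h) (h1 : h ≤ 1) (ks : Fin T → Fin (r + 1)) (x : Fin L → ℝ) {u : ℝ}
    (hu : ∀ᶠ n in cascFilter r,
      (baseState (truncBase P δ a m ks n) f s x (μ + h)).logMean f 1 ≤ u) :
    slotFree P f δ a m ks s x (μ + h) ≤ slotFree P f δ a m ks s x μ + (h * u + C * h ^ 2) := by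
  have := cascFilter_neBot r
  refine le_of_tendsto_of_tendsto (hTr N L T r P f A hN hf m hm δ a hδ ha s x _ (by linarith) ks).1
    ((hTr N L T r P f A hN hf m hm δ a hδ ha s x μ hμ ks).1.add_const _) ?_
  filter_upwards [hu] with n hn
  have := (abs_le.1 (hC N L P (truncBase P δ a m ks n) f hf s x μ h hμ h0 h1)).2
  linarith [mul_le_mul_of_nonneg_left hn h0]

/-- The reverse step, crude. -/
lemma slot_step_lower (hTr : TruncStmt) {C : ℝ} (hC : ∀ (N L : ℕ) (P : Sphere.Pts N) (B : Base P)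
      (f : ℝ → ℝ), Smooth f A → ∀ (s : ℝ) (x : Fin L → ℝ) (μ h : ℝ), 0 ≤ μ → 0 ≤ h → h ≤ 1 →
        |baseFree B f s x (μ + h) - baseFree B f s x μ -
          h * (baseState B f s x (μ + h)).logMean f 1| ≤ C * h ^ 2)
    (hN : N ≠ 0) (hf : Smooth f A) (hm : Exps m) (hδ : 0 ≤ δ) (ha : 0 ≤ a) (hμ : 0 ≤ μ) {h : ℝ}
    (h0 : 0 ≤ h) (h1 : h ≤ 1) (ks : Fin T → Fin (r + 1)) (x : Fin L → ℝ) :
    slotFree P f δ a m ks s x μ - (h * A + C * h ^ 2) ≤ slotFree P f δ a m ks s x (μ + h) := by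
  have := cascFilter_neBot r
  refine le_of_tendsto_of_tendsto'
    ((hTr N L T r P f A hN hf m hm δ a hδ ha s x μ hμ ks).1.sub_const _)
    (hTr N L T r P f A hN hf m hm δ a hδ ha s x _ (by linarith) ks).1 fun n => ?_
  have h2 := (abs_le.1 (hC N L P (truncBase P δ a m ks n) f hf s x μ h hμ h0 h1)).1
  have h3 := mul_le_mul_of_nonneg_left
    (abs_le.1 (abs_logMean_le hf (baseState_good (μ := μ + h) (s := s) (truncBase P δ a m ks n) hf x))).1 h0
  linarith

/-! ### Maximisers -/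

lemma exists_maxPt (hTr : TruncStmt) (hSh : PertShapeStmt) (hN : N ≠ 0) (hf : Smooth f A)
    (hm : Exps m) (hδ : 0 ≤ δ) (ha : 0 ≤ a) (s : ℝ) (hμ : 0 ≤ μ) (Tm : ℕ) :
    ∃ (T : ℕ) (ks : Fin T → Fin (r + 1)) (x : Fin N → ℝ), IsMaxPt P f δ a η m q s μ Tm ks x := by
  have hbox : IsCompact (Set.pi Set.univ fun _ : Fin N => Set.Icc (0 : ℝ) 3) :=
    isCompact_univ_pi fun _ => isCompact_Icc
  have hne : (Set.pi Set.univ fun _ : Fin N => Set.Icc (0 : ℝ) 3).Nonempty :=
    ⟨fun _ => 0, fun i _ => ⟨le_rfl, by norm_num⟩⟩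
  have hex : ∀ i : Σ T : Fin (Tm + 1), Fin T.val → Fin (r + 1),
      ∃ x ∈ Set.pi Set.univ fun _ : Fin N => Set.Icc (0 : ℝ) 3,
        IsMaxOn (obj P f δ a η m q s μ i.2) (Set.pi Set.univ fun _ : Fin N => Set.Icc (0 : ℝ) 3) x :=
    fun i => hbox.exists_isMaxOn hne
      ((((slotFacts (P := P) hTr hSh hN hf hm hδ ha s hμ i.2).cont.add continuous_const).sub
        continuous_const).sub (continuous_const.mul (continuous_finsetSum _ fun p _ =>
          continuous_const.mul (((continuous_apply p).sub continuous_const).pow 2)))).continuousOn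
  choose X hX hXm using hex
  haveI : Nonempty (Σ T : Fin (Tm + 1), Fin T.val → Fin (r + 1)) :=
    ⟨⟨0, fun t => t.elim0⟩⟩
  obtain ⟨i, -, hi⟩ := Finset.exists_max_image Finset.univ
    (fun i : Σ T : Fin (Tm + 1), Fin T.val → Fin (r + 1) => obj P f δ a η m q s μ i.2 (X i))
    Finset.univ_nonempty
  refine ⟨i.1.val, i.2, X i, ⟨Nat.le_of_lt_succ i.1.isLt, fun p => hX i p (Set.mem_univ p)⟩,
    fun T' ks' x' hT' hx' => ?_⟩
  exact (hXm ⟨⟨T', Nat.lt_succ_of_le hT'⟩, ks'⟩ (fun p _ => hx' p)).trans (hi _ (Finset.mem_univ _))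

variable {Tm : ℕ} {ks : Fin T → Fin (r + 1)} {x : Fin N → ℝ}

lemma obj_update_sub (x : Fin N → ℝ) (p : Fin N) (y : ℝ) (ks : Fin T → Fin (r + 1)) :
    obj P f δ a η m q s μ ks (Function.update x p y) - obj P f δ a η m q s μ ks x =
      slotFree P f δ a m ks s (Function.update x p y) μ - slotFree P f δ a m ks s x μ -
        100 * s ^ 2 * (1 / 4 : ℝ) ^ (p.val + 1) * ((y - 3 / 2) ^ 2 - (x p - 3 / 2) ^ 2) := by
  classical
  have e : ∑ i : Fin N, (1 / 4 : ℝ) ^ (i.val + 1) * (Function.update x p y i - 3 / 2) ^ 2 -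
      ∑ i : Fin N, (1 / 4 : ℝ) ^ (i.val + 1) * (x i - 3 / 2) ^ 2 =
      (1 / 4 : ℝ) ^ (p.val + 1) * ((y - 3 / 2) ^ 2 - (x p - 3 / 2) ^ 2) := by
    rw [← Finset.sum_sub_distrib, Finset.sum_eq_single p]
    · rw [Function.update_self]; ring
    · intro i _ hi; rw [Function.update_of_ne hi]; ring
    · simp
  simp only [obj]
  linear_combination -100 * s ^ 2 * e

/-- The quadratic cap at a maximiser. -/
lemma IsMaxPt.cap (h : IsMaxPt P f δ a η m q s μ Tm ks x) (p : Fin N) {y : ℝ}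
    (hy : y ∈ Set.Icc (0 : ℝ) 3) :
    slotFree P f δ a m ks s (Function.update x p y) μ ≤ slotFree P f δ a m ks s x μ +
      200 * s ^ 2 * (1 / 4 : ℝ) ^ (p.val + 1) * (x p - 3 / 2) * (y - x p) +
      100 * s ^ 2 * (1 / 4 : ℝ) ^ (p.val + 1) * (y - x p) ^ 2 := by
  have h1 := h.2 T ks (Function.update x p y) h.1.1 fun i => by
    rcases eq_or_ne i p with rfl | hi
    · rwa [Function.update_self]
    · rw [Function.update_of_ne hi]; exact h.1.2 i
  have h2 := obj_update_sub (P := P) (f := f) (δ := δ) (a := a) (η := η) (m := m) (q := q) (s := s)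
    (μ := μ) x p y ks
  linarith

/-- The coordinates of a maximiser are in `[1, 2]`. -/
lemma IsMaxPt.coord (h : IsMaxPt P f δ a η m q s μ Tm ks x)
    (hF : SlotFacts (L := N) P f δ a m s μ ks) (hs : 0 < s) (p : Fin N) :
    x p ∈ Set.Icc (1 : ℝ) 2 := by
  obtain ⟨h0, h3⟩ := h.1.2 p
  have key := h.cap p (y := 3 / 2) ⟨by norm_num, by norm_num⟩
  set c := 100 * s ^ 2 * (1 / 4 : ℝ) ^ (p.val + 1) with hc
  have hc0 : 0 < c := by positivity
  have key' : slotFree P f δ a m ks s (Function.update x p (3 / 2)) μ ≤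
      slotFree P f δ a m ks s x μ - c * (x p - 3 / 2) ^ 2 := by
    refine key.trans (le_of_eq ?_)
    rw [hc]; ring
  refine ⟨?_, ?_⟩
  · by_contra hlt
    have h4 := hF.mono x p (x p) (3 / 2) h0 (by linarith)
    rw [Function.update_eq_self] at h4
    have h5 : (1 / 4 : ℝ) ≤ (x p - 3 / 2) ^ 2 := by nlinarith
    nlinarith [mul_le_mul_of_nonneg_left h5 hc0.le]
  · by_contra hlt
    have h4 := hF.one x p (x p)
    rw [Function.update_eq_self] at h4
    have h5 := hF.mono x p 0 (3 / 2) le_rfl (by norm_num)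
    have h6 : (1 / 4 : ℝ) ≤ (x p - 3 / 2) ^ 2 := by nlinarith
    have h7 : x p ^ 2 ≤ 9 := by nlinarith
    have e : s ^ 2 * (1 / 4 : ℝ) ^ (p.val + 1) * x p ^ 2 / 2 = c / 200 * x p ^ 2 := by rw [hc]; ring
    rw [e] at h4
    nlinarith [mul_le_mul_of_nonneg_left h6 hc0.le, mul_le_mul_of_nonneg_left h7 hc0.le]

/-- The overlap on the levels is above the tails of `q` at a maximiser. -/
lemma IsMaxPt.tail_le (hS : SlotStepStmt) (h : IsMaxPt P f δ a η m q s μ Tm ks x) (hT : T < Tm)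
    (hN : N ≠ 0) (hf : Smooth f A) (hm : Exps m) (hδ : 0 < δ) (ha : 0 ≤ a)
    (hv : 0 < Up.svar a) (hM : Real.sqrt δ * (N * a) ≤ 1 / 10) (hμ : 0 ≤ μ) (k : Fin (r + 1)) :
    tailSum m q k ≤ slotOverlap P f δ a m ks s x μ k + 2 * η * (Up.svar a * δ * (2 * T + 1)) +
      40 * (Real.sqrt δ * (N * a)) ^ 3 / (Up.svar a * δ * N) := by
  have h1 := h.2 (T + 1) (Fin.cons k ks) x hT h.1.2
  have h2 := hS N N T r P f A hN hf m hm δ a hδ.le ha hM s x μ hμ ks k
  have hNR : (0 : ℝ) < N := by exact_mod_cast Nat.pos_of_ne_zero hN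
  set d := Up.svar a * δ with hd
  have hd0 : 0 < d := mul_pos hv hδ
  set B := slotOverlap P f δ a m ks s x μ k with hB
  set M3 := (Real.sqrt δ * (N * a)) ^ 3
  simp only [obj, Fin.sum_univ_succ, Fin.cons_zero, Fin.cons_succ, ← hd] at h1
  push_cast at h1
  have key : d * N / 2 * (tailSum m q k - B) ≤
      d * N / 2 * (2 * η * (d * (2 * T + 1))) + 20 * M3 := by nlinarith [h1, h2]
  have h3 : tailSum m q k - B ≤ 2 * η * (d * (2 * T + 1)) + 40 * M3 / (d * N) := by
    refine le_of_mul_le_mul_left ?_ (by positivity : 0 < d * N / 2)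
    refine key.trans (le_of_eq ?_)
    field_simp
    ring
  linarith

end Vale.Agent.P157.Parisi.Full
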