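import Vale.Agent.P157.Full.Statements
import Vale.Agent.P157.Parisi.Sphere.Main.Limit

/-!
Elementary facts for the upper bound: weights, excesses, states over a base, and the free energy
without slots.
-/

noncomputable section

open MeasureTheory ProbabilityTheory Filter
open scoped BigOperators NNReal ENNReal Topology

namespace Vale.Agent.P157.Parisi.Full

open Vale.Agent.P168 (shapeProb genNested cascFilter)
open Vale.Agent.P168.Cascade (Exps)

variable {r N L T : ℕ}

/-! ### Weights and excesses -/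

lemma abs_excess_sub_le {m : Fin r → ℝ} (hm : Exps m) (q : Fin (r + 1) → ℝ) (a b : ℝ) :
    |excess m q a - excess m q b| ≤ |a - b| := by
  rw [excess, excess, ← Finset.sum_sub_distrib]
  refine (Finset.abs_sum_le_sum_abs _ _).trans ?_
  calc ∑ p, |weight m p * max (q p - a) 0 - weight m p * max (q p - b) 0|
      ≤ ∑ p, weight m p * |a - b| := Finset.sum_le_sum fun p _ => by
        rw [← mul_sub, abs_mul, abs_of_nonneg (Up.weight_nonneg hm p)]
        refine mul_le_mul_of_nonneg_left ((abs_max_sub_max_le_abs _ _ _).trans_eq ?_)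
          (Up.weight_nonneg hm p)
        rw [show q p - a - (q p - b) = -(a - b) by ring, abs_neg]
    _ = |a - b| := by rw [← Finset.sum_mul, Up.sum_weight, one_mul]

lemma excess_nonneg {m : Fin r → ℝ} (hm : Exps m) (q : Fin (r + 1) → ℝ) (a : ℝ) :
    0 ≤ excess m q a :=
  Finset.sum_nonneg fun p _ => mul_nonneg (Up.weight_nonneg hm p) (le_max_right _ _)

/-- The excess over `a` is a tail sum. -/
lemma excess_eq_tail (m : Fin r → ℝ) {q : Fin (r + 1) → ℝ} (hq : Monotone q) (a : ℝ) :
    excess m q a = 0 ∨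
      ∃ k, excess m q a = tailSum m q k - a * tailSum m (fun _ => 1) k := by
  classical
  by_cases h : ∃ p, a < q p
  · set k : Fin (r + 1) := (Finset.univ.filter fun p => a < q p).min'
      (by obtain ⟨p, hp⟩ := h; exact ⟨p, by simp [hp]⟩) with hk
    refine Or.inr ⟨k, ?_⟩
    rw [excess, tailSum, tailSum, Finset.mul_sum, ← Finset.sum_sub_distrib]
    refine Finset.sum_congr rfl fun p _ => ?_
    have hka : a < q k := (Finset.mem_filter.1 (Finset.min'_mem (Finset.univ.filter fun p => a < q p)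
      (by obtain ⟨p, hp⟩ := h; exact ⟨p, by simp [hp]⟩))).2
    unfold slotDir
    split_ifs with hp
    · rw [max_eq_left (by linarith [hq hp])]; ring
    · rw [max_eq_right]
      · ring
      · by_contra hlt
        exact hp (Finset.min'_le (Finset.univ.filter fun p => a < q p) p
          (by simp only [Finset.mem_filter, Finset.mem_univ, true_and]; linarith [not_le.1 hlt]))
  · refine Or.inl (Finset.sum_eq_zero fun p _ => ?_)
    push_neg at h
    rw [max_eq_right (by linarith [h p]), mul_zero]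

lemma treeExp_excess (ξ : Path) (a : ℝ) :
    ξ.treeExp 2 (fun O => max (O 0 1 - a) 0) = excess ξ.m ξ.q a := by
  rw [Path.treeExp, excess, ← Site.sum_shape_two ξ.m fun p => max (ξ.q p - a) 0]
  exact Finset.sum_congr rfl fun v _ => by simp [Path.gram]

/-! ### States over a base -/

variable {P : Sphere.Pts N} {f : ℝ → ℝ} {A s μ : ℝ}

lemma baseState_good (B : Base P) (hf : Smooth f A) (x : Fin L → ℝ) :
    (baseState B f s x μ).IsGood where
  prob := inferInstanceAs (IsProbabilityMeasure ((disLaw N L μ).prod B.law))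
  meas σ := by
    have h : ∀ τ, Measurable fun z : Dis N L × B.Ω =>
        B.v z.2 τ * Real.exp (Sphere.totalH f s x z.1 τ) := fun τ =>
      ((B.meas τ).comp measurable_snd).mul
        ((((Sphere.Main.measurable_totalH (P := P) (L := L) (s := s) hf τ).comp
          measurable_prodMk_left).comp measurable_fst).exp)
    exact (h σ).div (Finset.measurable_sum _ fun τ _ => h τ)
  nonneg z σ := div_nonneg (mul_nonneg (B.pos z.2 σ).le (Real.exp_pos _).le)
    (Finset.sum_nonneg fun τ _ => mul_nonneg (B.pos z.2 τ).le (Real.exp_pos _).le)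
  sum_one z := by
    show ∑ σ, _ / _ = 1
    rw [← Finset.sum_div, div_self]
    exact (Finset.sum_pos (fun τ _ => mul_pos (B.pos z.2 τ) (Real.exp_pos _))
      Finset.univ_nonempty).ne'

lemma repMean_abs_le {S : Sphere.State P} (hS : S.IsGood) {n : ℕ}
    {F : (Fin n → Sphere.Conf P) → ℝ} {c : ℝ} (hF : ∀ σ, |F σ| ≤ c) : |S.repMean n F| ≤ c := by
  have := hS.prob
  rw [← Real.norm_eq_abs]
  refine (norm_integral_le_of_norm_le_const (μ := S.law) (C := c)
    (Eventually.of_forall fun ω => ?_)).trans_eq (by rw [probReal_univ, mul_one])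
  rw [Real.norm_eq_abs]
  refine (Finset.abs_sum_le_sum_abs _ _).trans ?_
  calc ∑ σ : Fin n → Sphere.Conf P, |(∏ l, S.w ω (σ l)) * F σ|
      ≤ ∑ σ : Fin n → Sphere.Conf P, (∏ l, S.w ω (σ l)) * c := Finset.sum_le_sum fun σ _ => by
        rw [abs_mul, abs_of_nonneg (Finset.prod_nonneg fun l _ => hS.nonneg ω _)]
        exact mul_le_mul_of_nonneg_left (hF σ) (Finset.prod_nonneg fun l _ => hS.nonneg ω _)
    _ = c := by rw [← Finset.sum_mul, ← Fintype.sum_pow, hS.sum_one, one_pow, one_mul]

lemma abs_overlap_pow_le (σ τ : Sphere.Conf P) (k : ℕ) : |Sphere.overlap σ τ ^ k| ≤ 1 := by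
  rw [abs_pow]
  exact pow_le_one₀ (abs_nonneg _) (Sphere.Main.abs_overlap_le σ τ)

/-- Every state satisfies the identity within `2`. -/
lemma gg_two {S : Sphere.State P} (hS : S.IsGood) (p : ℕ) : Sphere.GGWithin S p 2 := by
  intro n F hF
  have h1 : |S.repMean (n + 2) fun σ => F (fun l => σ l.castSucc) *
      Sphere.overlap (σ 0) (σ (Fin.last (n + 1))) ^ (p + 1)| ≤ 1 :=
    repMean_abs_le hS fun σ => by
      rw [abs_mul]; exact mul_le_one₀ (hF _) (abs_nonneg _) (abs_overlap_pow_le _ _ _)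
  have h2 : |S.repMean (n + 1) F| ≤ 1 := repMean_abs_le hS hF
  have h3 : |S.repMean 2 fun σ => Sphere.overlap (σ 0) (σ 1) ^ (p + 1)| ≤ 1 :=
    repMean_abs_le hS fun σ => abs_overlap_pow_le _ _ _
  have h4 : |∑ l : Fin n, S.repMean (n + 1)
      fun σ => F σ * Sphere.overlap (σ 0) (σ l.succ) ^ (p + 1)| ≤ n :=
    (Finset.abs_sum_le_sum_abs _ _).trans ((Finset.sum_le_sum fun l _ =>
      repMean_abs_le hS fun σ => (by
        rw [abs_mul]; exact mul_le_one₀ (hF _) (abs_nonneg _) (abs_overlap_pow_le _ _ _))).trans_eq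
      (by simp))
  have h5 : |S.repMean (n + 1) F * S.repMean 2 fun σ => Sphere.overlap (σ 0) (σ 1) ^ (p + 1)| ≤ 1 := by
    rw [abs_mul]; exact mul_le_one₀ h2 (abs_nonneg _) h3
  refine (abs_sub _ _).trans ?_
  have h6 := abs_add_le (S.repMean (n + 1) F * S.repMean 2
    fun σ => Sphere.overlap (σ 0) (σ 1) ^ (p + 1)) (∑ l : Fin n, S.repMean (n + 1)
      fun σ => F σ * Sphere.overlap (σ 0) (σ l.succ) ^ (p + 1))
  rw [abs_mul, abs_of_nonneg (by positivity : (0 : ℝ) ≤ (n : ℝ) + 1)]
  nlinarith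

lemma abs_logMean_le (hf : Smooth f A) {S : Sphere.State P} (hS : S.IsGood) :
    |S.logMean f 1| ≤ A := by
  have := hS.prob
  rw [← Real.norm_eq_abs]
  refine (norm_integral_le_of_norm_le_const (μ := S.law) (C := A)
    (Eventually.of_forall fun ω => ?_)).trans_eq (by rw [probReal_univ, mul_one])
  refine (norm_integral_le_of_norm_le_const (C := A)
    (Eventually.of_forall fun g => ?_)).trans_eq (by simp)
  have hb : ∀ σ : Sphere.Conf P, |∑ j : Fin 1, f (dot (g j) (Sphere.unitVec σ))| ≤ A := fun σ => by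
    simpa using hf.b0 _
  have hlo : Real.exp (-A) ≤ ∑ σ, S.w ω σ * Real.exp (∑ j, f (dot (g j) (Sphere.unitVec σ))) := by
    calc Real.exp (-A) = ∑ σ, S.w ω σ * Real.exp (-A) := by
          rw [← Finset.sum_mul, hS.sum_one, one_mul]
      _ ≤ _ := Finset.sum_le_sum fun σ _ => mul_le_mul_of_nonneg_left
          (Real.exp_le_exp.2 (abs_le.1 (hb σ)).1) (hS.nonneg ω σ)
  have hhi : ∑ σ, S.w ω σ * Real.exp (∑ j, f (dot (g j) (Sphere.unitVec σ))) ≤ Real.exp A := by
    calc _ ≤ ∑ σ, S.w ω σ * Real.exp A := Finset.sum_le_sum fun σ _ =>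
          mul_le_mul_of_nonneg_left (Real.exp_le_exp.2 (abs_le.1 (hb σ)).2) (hS.nonneg ω σ)
      _ = _ := by rw [← Finset.sum_mul, hS.sum_one, one_mul]
  have hp := (Real.exp_pos _).trans_le hlo
  rw [Real.norm_eq_abs, abs_le, Real.le_log_iff_exp_le hp, Real.log_le_iff_le_exp hp]
  exact ⟨hlo, hhi⟩

/-! ### No slots, no patterns -/

lemma slotFree_empty (f : ℝ → ℝ) (δ a : ℝ) {m : Fin r → ℝ} (hm : Exps m)
    (ks : Fin 0 → Fin (r + 1)) (x : Fin L → ℝ) :
    slotFree P f δ a m ks s x μ = Sphere.logPartS P f s x μ := by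
  refine integral_congr_ae (Eventually.of_forall fun d => ?_)
  set c := (∑ σ : Sphere.Conf P, Real.exp (Sphere.totalH f s x d σ)) / (P.K : ℝ) with hc
  have hc0 : 0 < c := div_pos (Finset.sum_pos (fun _ _ => Real.exp_pos _) Finset.univ_nonempty)
    (Nat.cast_pos.2 P.pos)
  have e : ∀ E, Sphere.Up.Phi (slotLaw 0 N) m (slotW δ a ks (Sphere.totalH (P := P) f s x d) E) =
      Real.log c := fun E => by
    have hsum : (fun η : Fin r → Fin 0 → Fin N → ℝ =>
        ∑ σ, slotW δ a ks (Sphere.totalH (P := P) f s x d) E σ η) = fun _ => c := by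
      funext η
      simp [slotW, slotX, hc, Finset.sum_div]
    rw [Sphere.Up.Phi, hsum]
    obtain ⟨h1, h2⟩ := Vale.Agent.P168.Upper.genNested_bounds (slotLaw 0 N) m hm.pos
      (fun _ => c) measurable_const (hi := c) hc0 fun _ => ⟨le_rfl, le_rfl⟩
    rw [le_antisymm h2 h1]
  simp only [e, integral_const, probReal_univ, one_smul]
  rfl

end Vale.Agent.P157.Parisi.Full
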